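import Vale.Agent.Lib.P002.G1Defs

/-!
Leading minors of a product of a lower and an upper triangular matrix, and of a bordered
matrix (second copy of pool job 358, P002 G1-B).
-/

namespace Vale.Agent.Lib.P002.H44

open Matrix
open Vale.Agent.Lib.P002

/-- Truncation of a product when the last column of the left factor vanishes above the
corner. -/
theorem trunc_mul_of_left {S : Type*} [CommRing S] {k : ℕ}
    (L B : Matrix (Fin (k + 1)) (Fin (k + 1)) S)
    (hL : ∀ i : Fin k, L i.castSucc (Fin.last k) = 0) :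
    (L * B).submatrix Fin.castSucc Fin.castSucc =
      L.submatrix Fin.castSucc Fin.castSucc * B.submatrix Fin.castSucc Fin.castSucc := by
  ext i j
  simp only [Matrix.submatrix_apply, Matrix.mul_apply, Fin.sum_univ_castSucc, hL i, zero_mul,
    add_zero]

/-- Truncation of a bordered matrix. -/
theorem bmat_trunc {S : Type*} [CommRing S] {k : ℕ} (ε : S) (x y : Fin (k + 1) → S)
    (N : Matrix (Fin (k + 1)) (Fin (k + 1)) S) :
    (bmat ε x y N).submatrix Fin.castSucc Fin.castSucc =
      bmat ε (fun j => x j.castSucc) (fun i => y i.castSucc)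
        (N.submatrix Fin.castSucc Fin.castSucc) := by
  ext i j
  refine Fin.cases ?_ (fun i => ?_) i <;> refine Fin.cases ?_ (fun j => ?_) j
  · simp only [Matrix.submatrix_apply, Fin.castSucc_zero, bmat_zero_zero]
  · simp only [Matrix.submatrix_apply, Fin.castSucc_zero, ← Fin.succ_castSucc, bmat_zero_succ]
  · simp only [Matrix.submatrix_apply, Fin.castSucc_zero, ← Fin.succ_castSucc, bmat_succ_zero]
  · simp only [Matrix.submatrix_apply, ← Fin.succ_castSucc, bmat_succ_succ]

/-- The factorization of a bordered product. -/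
theorem bmat_factor {S : Type*} [CommRing S] {k : ℕ} (l β : Matrix (Fin k) (Fin k) S)
    (ξ η : Fin k → S) (ε : S) :
    bmat ε (ξ ᵥ* β) (l *ᵥ η) (l * β) =
      bmat 1 0 0 l * (bmat 1 ξ 0 1 * bmat (ε - ξ ⬝ᵥ η) 0 η 1) * bmat 1 0 0 β := by
  rw [bmat_mul, bmat_mul, bmat_mul]
  congr 1 <;> simp

/-- The determinant of a bordered product. -/
theorem det_bmat_prod {S : Type*} [CommRing S] {k : ℕ} (l β : Matrix (Fin k) (Fin k) S)
    (ξ η : Fin k → S) (ε : S) :
    (bmat ε (ξ ᵥ* β) (l *ᵥ η) (l * β)).det = (l * β).det * (ε - ξ ⬝ᵥ η) := by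
  rw [bmat_factor, Matrix.det_mul, Matrix.det_mul, Matrix.det_mul, det_bmat_col_zero,
    det_bmat_col_zero, det_bmat_col_zero, det_bmat_row_zero, Matrix.det_one, Matrix.det_mul]
  ring

theorem lead_mul_lt_ut {S : Type*} [CommRing S] : ∀ (k t : ℕ) (L B : Matrix (Fin k) (Fin k) S),
    (∀ i j, i < j → L i j = 0) → (∀ i j, j < i → B i j = 0) →
    lead t k (L * B) = ∏ j : Fin k, if j.val < t then L j j * B j j else 1 := by
  intro k
  induction k with
  | zero =>
    intro t L B _ _
    rw [lead_zero_size]
    simp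
  | succ k ih =>
    intro t L B hL hB
    rw [lead_succ]
    split_ifs with h
    · rw [Matrix.det_mul, det_lt hL, det_ut hB, ← Finset.prod_mul_distrib]
      refine Finset.prod_congr rfl (fun j _ => ?_)
      rw [if_pos (lt_of_lt_of_le j.isLt h)]
    · rw [trunc_mul_of_left L B (fun i => hL _ _ (Fin.castSucc_lt_last i)),
        ih t (L.submatrix Fin.castSucc Fin.castSucc) (B.submatrix Fin.castSucc Fin.castSucc)
          (fun i j hij => hL _ _ (Fin.castSucc_lt_castSucc_iff.mpr hij))
          (fun i j hij => hB _ _ (Fin.castSucc_lt_castSucc_iff.mpr hij)),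
        Fin.prod_univ_castSucc]
      have h1 : ¬ ((Fin.last k).val < t) := by
        rw [Fin.val_last]
        omega
      rw [if_neg h1, mul_one]
      rfl

theorem lead_bmat {S : Type*} [CommRing S] : ∀ (k t : ℕ) (l β : Matrix (Fin k) (Fin k) S)
    (ξ η : Fin k → S) (ε : S),
    (∀ i j, i < j → l i j = 0) → (∀ i j, j < i → β i j = 0) →
    lead (t + 1) (k + 1) (bmat ε (ξ ᵥ* β) (l *ᵥ η) (l * β)) =
      lead t k (l * β) * (ε - ∑ j : Fin k, if j.val < t then ξ j * η j else 0) := by
  intro k
  induction k with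
  | zero =>
    intro t l β ξ η ε _ _
    rw [lead_of_le 1 (t + 1) _ (by omega), lead_of_le 0 t _ (by omega), det_bmat_prod]
    simp
  | succ k ih =>
    intro t l β ξ η ε hl hβ
    by_cases hkt : k + 1 ≤ t
    · rw [lead_of_le (k + 1 + 1) (t + 1) _ (by omega), lead_of_le (k + 1) t _ hkt, det_bmat_prod]
      congr 2
      unfold dotProduct
      refine Finset.sum_congr rfl (fun j _ => ?_)
      rw [if_pos (lt_of_lt_of_le j.isLt hkt)]
    · have hl0 : ∀ i : Fin k, l i.castSucc (Fin.last k) = 0 :=
        fun i => hl _ _ (Fin.castSucc_lt_last i)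
      have hβ0 : ∀ j : Fin k, β (Fin.last k) j.castSucc = 0 :=
        fun j => hβ _ _ (Fin.castSucc_lt_last j)
      rw [lead_succ, if_neg (by omega), lead_succ t k, if_neg hkt, bmat_trunc,
        trunc_mul_of_left l β hl0]
      have e1 : (fun j : Fin k => (ξ ᵥ* β) j.castSucc) =
          (fun j : Fin k => ξ j.castSucc) ᵥ* β.submatrix Fin.castSucc Fin.castSucc := by
        funext j
        simp only [Matrix.vecMul, dotProduct, Matrix.submatrix_apply, Fin.sum_univ_castSucc,
          hβ0 j, mul_zero, add_zero]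
      have e2 : (fun i : Fin k => (l *ᵥ η) i.castSucc) =
          l.submatrix Fin.castSucc Fin.castSucc *ᵥ (fun j : Fin k => η j.castSucc) := by
        funext i
        simp only [Matrix.mulVec, dotProduct, Matrix.submatrix_apply, Fin.sum_univ_castSucc,
          hl0 i, zero_mul, add_zero]
      rw [e1, e2, ih t (l.submatrix Fin.castSucc Fin.castSucc)
        (β.submatrix Fin.castSucc Fin.castSucc) (fun j : Fin k => ξ j.castSucc)
        (fun j : Fin k => η j.castSucc) ε
        (fun i j hij => hl _ _ (Fin.castSucc_lt_castSucc_iff.mpr hij))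
        (fun i j hij => hβ _ _ (Fin.castSucc_lt_castSucc_iff.mpr hij)),
        Fin.sum_univ_castSucc]
      have h1 : ¬ ((Fin.last k).val < t) := by
        rw [Fin.val_last]
        omega
      rw [if_neg h1, add_zero]
      rfl

end Vale.Agent.Lib.P002.H44
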